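import Vale.Agent.P235.K5.H838.Inst
import Vale.Agent.P235.K5.H320.NDefs

set_option linter.all false

/-!
# P235, 3-sums: the slots of Theorem N for a tree of torsos (TREE + MON)
-/

namespace Vale.Agent.P235.K5.H332

open Finset Vale.Agent.P235 Vale.Agent.P235.K5.H838 Vale.Agent.P235.K5.H320

section

variable {n T k : ℕ} {Z : Tor n T k} {d : Fin n → Fin n → ℝ}

theorem slo_up_lt {t : Fin T} (h : ¬ Z.up t = t) : Z.up t < t := lt_of_le_of_ne (Z.up_le t) h

theorem slo_self {v : Fin n} {t : Fin T} (h : Z.tor v = t) : Z.Below t v := by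
  subst h
  exact H684.Elim.Desc.refl _ _

theorem slo_up {v : Fin n} {t : Fin T} (h : Z.Below t v) : Z.Below (Z.up t) v :=
  H684.Elim.Desc.trans ⟨1, rfl⟩ h

theorem slo_le {v : Fin n} {t : Fin T} (h : Z.Below t v) : t ≤ Z.tor v := H684.Elim.Desc.le h

/-- the vertices of the torsos below `t` -/
def SU (Z : Tor n T k) (t : Fin T) : Set (Fin n) := {v | Z.Below t v} ∪ (Z.S t : Set (Fin n))

theorem H_sub_SU {t : Fin T} {v : Fin n} (h : v ∈ Z.H t) : v ∈ SU Z t := by
  unfold Tor.H at h
  rw [mem_union, mem_filter] at h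
  rcases h with h | h
  · exact Or.inr (mem_coe.2 h)
  · exact Or.inl (slo_self h.2)

theorem SU_up {t : Fin T} : SU Z t ⊆ SU Z (Z.up t) := by
  intro v hv
  rcases hv with hv | hv
  · exact Or.inl (slo_up hv)
  · rcases Z.sub t v (mem_coe.1 hv) with h | h
    · exact Or.inr (mem_coe.2 h)
    · exact Or.inl (slo_self h)

/-- the adhesions, with one vertex of the root torso as adhesion of the root -/
def SS (Z : Tor n T k) (r0 : Fin n) (t : Fin T) : Finset (Fin n) :=
  if Z.up t = t then {r0} else Z.S t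

theorem SS_of_ne {r0 : Fin n} {t : Fin T} (h : ¬ Z.up t = t) : SS Z r0 t = Z.S t := if_neg h

theorem root_zero {t : Fin T} (h : Z.up t = t) : t.val = 0 := by
  by_contra h0
  have h1 := Z.up_lt t (Nat.pos_of_ne_zero h0)
  rw [h] at h1
  exact lt_irrefl _ h1

theorem nonroot_of_mem {t : Fin T} {a : Fin n} (h : a ∈ Z.S t) : ¬ Z.up t = t := by
  intro h1
  rw [Z.root t h1] at h
  simp at h

/-- the tree of helper838 -/
def tree838 (h : Z.Sep d) {r0 : Fin n} (hr0 : (Z.tor r0).val = 0) : Tree (Fin T) (Fin n) d where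
  par := fun t => if Z.up t = t then none else some (Z.up t)
  par_lt := fun {t s} hp => by
    split_ifs at hp with h1
    cases hp
    exact slo_up_lt h1
  S := SS Z r0
  U := SU Z
  S_sub := fun t a ha => by
    unfold SS at ha
    split_ifs at ha with h1
    · rw [mem_singleton] at ha
      subst ha
      refine Or.inl (slo_self ?_)
      apply Fin.ext
      rw [hr0, root_zero h1]
    · exact Or.inr (mem_coe.2 ha)
  U_par := fun {t s} hp => by
    split_ifs at hp with h1
    cases hp
    exact SU_up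
  sep := fun {t s} hp p hpU q hq => by
    split_ifs at hp with h1
    cases hp
    rw [SS_of_ne h1]
    rcases hpU with hpU | hpU
    · have h2 : ¬ Z.Below t q := by
        intro h3
        have h4 := slo_le h3
        have h5 := slo_up_lt h1
        unfold SS at hq
        split_ifs at hq with h6
        · rw [mem_singleton] at hq
          subst hq
          rw [Fin.le_def, hr0] at h4
          rw [Fin.lt_def] at h5
          omega
        · exact absurd (lt_trans (Z.low _ q hq) h5) (not_lt.2 h4)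
      obtain ⟨a, ha, h7⟩ := h.sep t p q hpU h2
      exact ⟨a, ha, h7.ge⟩
    · exact ⟨p, mem_coe.1 hpU, by rw [h.self, zero_add]⟩

theorem SS_ne (h : Z.Sep d) {r0 : Fin n} (t : Fin T) : (SS Z r0 t).Nonempty := by
  unfold SS
  split_ifs with h1
  · exact ⟨r0, mem_singleton_self _⟩
  · obtain ⟨v, hv⟩ := Z.surj t
    obtain ⟨w, hw⟩ := Z.surj (Z.up t)
    have h2 : ¬ Z.Below t w := by
      intro h3
      have h4 := slo_le h3
      rw [hw] at h4
      exact absurd (slo_up_lt h1) (not_lt.2 h4)
    obtain ⟨a, ha, -⟩ := h.sep t v w (slo_self hv) h2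
    exact ⟨a, ha⟩

theorem anc_of_desc (h : Z.Sep d) {r0 : Fin n} (hr0 : (Z.tor r0).val = 0) {b t : Fin T}
    (hb : Z.tree.Desc b t) : H732.Anc (tree838 h hr0).par b t := by
  obtain ⟨j, hj⟩ := hb
  induction j generalizing t with
  | zero =>
    have h1 : t = b := hj
    subst h1
    exact H732.Anc.refl
  | succ j ih =>
    rw [Function.iterate_succ_apply] at hj
    have h1 := ih hj
    by_cases h2 : Z.up t = t
    · have h3 : Z.tree.par t = t := h2
      rwa [h3] at h1
    · exact H732.Anc.step (if_neg h2) h1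

end

/-- **[SLOTS]** -/
theorem slotStmt : SlotStmt := by
  intro k
  refine ⟨H360.Nodes.LL (max k 1) (max k 1 * (max k 1 * max k 1) + 1), ?_⟩
  intro n T Z d h
  have hd : PM d := ⟨h.self, h.symm, h.tri⟩
  rcases isEmpty_or_nonempty (Fin n) with hn | ⟨⟨v0⟩⟩
  · have hT : ∀ t : Fin T, False := fun t => by
      obtain ⟨v, -⟩ := Z.surj t
      exact hn.false v
    exact ⟨fun _ _ _ => 0, fun _ _ _ => 0, ⟨fun t => (hT t).elim, fun t => (hT t).elim,
      fun t => (hT t).elim, fun t => (hT t).elim, fun t => (hT t).elim, fun t => (hT t).elim⟩⟩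
  obtain ⟨r0, hr⟩ := Z.surj ⟨0, (Nat.zero_le _).trans_lt (Z.tor v0).isLt⟩
  have hr0 : (Z.tor r0).val = 0 := by rw [hr]
  set D := tree838 h hr0 with hD
  have hcard : ∀ t, (D.S t).card ≤ max k 1 := by
    intro t
    show (SS Z r0 t).card ≤ max k 1
    unfold SS
    split_ifs
    · rw [card_singleton]
      exact le_max_right _ _
    · exact (Z.card t).trans (le_max_left _ _)
  have hM : ∀ p q, d p q ≤ ∑ x : Fin n × Fin n, d x.1 x.2 := fun p q =>
    Finset.single_le_sum (f := fun x : Fin n × Fin n => d x.1 x.2)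
      (fun x _ => hd.nonneg _ _) (mem_univ (p, q))
  obtain ⟨η, h1, h2, h3, -, h5⟩ := D.slots hd hcard (fun t => SS_ne h t) _ hM
  have hSt : ∀ {t : Fin T} {a : Fin n}, a ∈ Z.S t → a ∈ D.S t := by
    intro t a ha
    show a ∈ SS Z r0 t
    rw [SS_of_ne (nonroot_of_mem ha)]
    exact ha
  have hL : 0 < H360.Nodes.LL (max k 1) (max k 1 * (max k 1 * max k 1) + 1) := by
    unfold H360.Nodes.LL
    positivity
  refine ⟨η, D.X, ⟨h1, ?_, ?_, ?_, ?_, ?_⟩⟩
  · intro t ht j
    rcases h3 t j with ⟨s, hs, h6⟩ | h6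
    · have hs' : (if Z.up t = t then none else some (Z.up t)) = some s := hs
      rw [if_neg ht] at hs'
      cases hs'
      exact Or.inl h6
    · right
      intro a ha
      exact h6 a (hSt ha)
  · intro t z _ a ha
    exact ((D.E_pm t).nonneg z a).trans (D.E_le_X hd (hSt ha) z)
  · intro b t hb j z hz a ha
    have hA := anc_of_desc h hr0 hb
    have hzU : z ∈ D.U t := H_sub_SU hz
    have haU : a ∈ D.U t := D.S_sub t a (hSt ha)
    have h6 := h2 b j z a
    rw [D.dt_of_mem (D.U_anc hA hzU) (D.U_anc hA haU)] at h6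
    exact h6.trans (D.X_point hd hA (hSt ha) hzU)
  · intro t z hz a ha
    by_cases h0 : 0 < D.X t a z
    · obtain ⟨j, hj⟩ := h5 t z a (hSt ha) h0
      exact ⟨j, by linarith⟩
    · exact ⟨⟨0, hL⟩, by
        have := abs_nonneg (η t ⟨0, hL⟩ z - η t ⟨0, hL⟩ a)
        linarith⟩
  · intro b t hb z hz a ha s hs
    have hA := anc_of_desc h hr0 hb
    have hzU : z ∈ D.U t := H_sub_SU hz
    obtain ⟨s', hs', h6⟩ := D.F_near ⟨s, hSt hs⟩ z
    have hs'' : s' ∈ SS Z r0 b := hs'
    rw [SS_of_ne (nonroot_of_mem hs)] at hs''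
    refine ⟨s', hs'', ?_⟩
    have h7 := D.F_le_E hd b z a
    have h8 := D.X_point hd hA (hSt ha) hzU
    have h9 := D.F_le (hSt hs) a
    have h10 := le_abs_self (D.F b z - D.F b a)
    linarith

end Vale.Agent.P235.K5.H332
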