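import Vale.Agent.P235.K5.H332.Slots
import Vale.Agent.P235.K5.H320.NOut

/-!
# P235, 3-sums: Theorem N (helper320), no hypothesis left
-/

namespace Vale.Agent.P235.K5.H332

open Vale.Agent.P235.K5

/-- **Theorem N**: the fresh laws of the torsos, the constant depends on `k` only -/
theorem nthm : ∀ k : ℕ, 1 ≤ k → ∃ C1 : ℝ, 0 < C1 ∧
    ∀ (n T : ℕ) (Z : Tor n T k) (d : Fin n → Fin n → ℝ), Z.Sep d → Z.NLaw d C1 :=
  H320.nOut slotStmt

end Vale.Agent.P235.K5.H332
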