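import Vale.Agent.P235.K5.H332.Coup
import Vale.Agent.P235.K5.H439.Proc
import Vale.Agent.P235.H957.Laws
import Vale.Agent.P235.H684.End

/-!
# P235, 3-sums (Theorem N of helper320), row [NLOC]: from the process over a tree of bags to the
laws of the bags and the couplings along the root paths, in node letters
-/

namespace Vale.Agent.P235.K5.H332

open Finset Vale.Agent.P235 Vale.Agent.P235.H926 Vale.Agent.P235.K5.H439

/-- a path of nodes downwards -/
structure NPath {T : Type} (par : T → T) (root : T → Prop) (τ : ℕ → T) (N : ℕ) : Prop where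
  par : ∀ i < N, par (τ (i + 1)) = τ i
  nroot : ∀ i < N, ¬ root (τ (i + 1))

/-- the coupling of the bag laws along a path of nodes: the cut at `z` (a vertex of the last bag)
is not a function of the cut on the first adhesion `S (τ 1)` -/
structure NodeCoup {n : ℕ} {T : Type} (μ : T → (Fin n → Bool) → ℝ) (S H : T → Finset (Fin n))
    (τ : ℕ → T) (N : ℕ) (z : Fin n) (c : ℝ) {Ω : Type} [Fintype Ω] (w : Ω → ℝ)
    (X : ℕ → Ω → (Fin n → Bool)) : Prop where
  nonneg : ∀ ω, 0 ≤ w ω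
  bag : ∀ i, 1 ≤ i → i ≤ N → ∀ h : (Fin n → Bool) → ℝ, H684.DepOn (H (τ i) : Set (Fin n)) h →
    ∑ ω, w ω * h (X i ω) = H684.Ex (μ (τ i)) h
  agree : ∀ i, 1 ≤ i → i < N → ∀ ω, w ω ≠ 0 → ∀ v ∈ S (τ (i + 1)), X i ω v = X (i + 1) ω v
  far : ∀ f : (Fin n → Bool) → ℝ, (∀ Y, f Y = 0 ∨ f Y = 1) →
    H684.DepOn (S (τ 1) : Set (Fin n)) f →
    c ≤ ∑ ω, w ω * |f (X 1 ω) - (if X N ω z = true then 1 else 0)|

section

variable {n : ℕ} {T : Type} {dt : T → Fin n → Fin n → ℝ} {par : T → T} {root : T → Prop}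
  {S H : T → Finset (Fin n)} {Cc : T → Fin n → Fin n → ℝ} {κ ε : ℝ}

/-- the chain of environments along a path of nodes, starting with the adhesion `S (τ 1)` -/
noncomputable def chainOf (R : BProc T (Fin n) dt par root S Cc κ ε)
    (hSH : ∀ t, S t ⊆ H t) (hSP : ∀ t, ¬ root t → S t ⊆ H (par t))
    (hne : ∀ t, ¬ root t → (S t).Nonempty) {τ : ℕ → T} {N : ℕ} (hp : NPath par root τ N) :
    Chain.{0, 0} (Fin n) N where
  Ω := fun _ => R.O
  fin := fun _ => R.fO
  P := fun i => R.P (τ i)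
  Q := fun i => R.Q (τ (i + 1))
  g := fun i => R.g (τ i)
  A := fun i => S (τ i)
  B := fun i => if i = 0 then S (τ 1) else H (τ i)
  P_nonneg := fun i ω => R.P_nonneg _ _
  P_sum := fun i => R.P_sum _
  Q_nonneg := fun i ω ω' => R.Q_nonneg _ _ _
  Q_left := fun i hi ω => by rw [R.Q_left _ (hp.nroot i hi), hp.par i hi]
  Q_right := fun i hi ω' => R.Q_right _ (hp.nroot i hi) ω'
  A_sub := fun i hi => by
    by_cases h0 : i = 0
    · subst h0
      exact subset_rfl
    · rw [if_neg h0]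
      have h := hSP _ (hp.nroot i hi)
      rw [hp.par i hi] at h
      exact h
  A_sub' := fun i _ => by
    rw [if_neg (Nat.succ_ne_zero i)]
    exact hSH _
  A_ne := fun i hi => hne _ (hp.nroot i hi)
  ce := fun i hi a ha ω' => by
    have h := R.ce (τ (i + 1)) (hp.nroot i hi) a ha ω'
    rw [hp.par i hi] at h
    exact h
  ord := fun i hi a ha b hb ω' => by
    have h := fun o hQ => R.ord (τ (i + 1)) (hp.nroot i hi) o ω' hQ a ha b hb
    have h' := fun o hQ => R.ord (τ (i + 1)) (hp.nroot i hi) o ω' hQ b hb a ha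
    simp only [hp.par i hi] at h h'
    rcases le_total (R.g (τ (i + 1)) ω' a) (R.g (τ (i + 1)) ω' b) with h2 | h2
    · exact Or.inl fun o ho => (h o ho.ne').mpr h2
    · exact Or.inr fun o ho => (h' o ho.ne').mpr h2

/-- **[NLOC]** the laws of the bags and the couplings along the paths of nodes. `D t z a` is the
(contracted) distance of a new vertex `z` of the bag `H t` to the vertex `a` of the adhesion. -/
theorem nloc [Finite T] (R : BProc T (Fin n) dt par root S Cc κ ε) (hκ : 0 < κ)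
    (hdt : ∀ t p q, 0 ≤ dt t p q)
    (rk : T → ℕ) (M : ℕ) (hrk : ∀ t, ¬ root t → rk (par t) < rk t) (hM : ∀ t, rk t ≤ M)
    (hSH : ∀ t, S t ⊆ H t) (hSP : ∀ t, ¬ root t → S t ⊆ H (par t))
    (hne : ∀ t, ¬ root t → (S t).Nonempty) {kk : ℕ} (hkk : 0 < kk)
    (hcard : ∀ t, (S t).card ≤ kk) (hε : kk * ε ≤ PathChain.thSeq kk (kk - 1) / 4)
    {c0 : ℝ} (hc0 : 0 < c0) (D : T → Fin n → Fin n → ℝ)
    (hD0 : ∀ t, ∀ z ∈ H t, z ∉ S t → ∀ a ∈ S t, 0 ≤ D t z a)
    (hDd : ∀ t, ∀ z ∈ H t, z ∉ S t → ∀ a ∈ S t, dt t z a ≤ 2 * D t z a)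
    (hDC : ∀ t, ¬ root t → ∀ z ∈ H t, z ∉ S t → ∀ a ∈ S t, c0 * D t z a ≤ Cc t z a) :
    ∃ (μ : T → (Fin n → Bool) → ℝ) (Λ : ℝ), 0 < Λ ∧ (∀ t, H684.IsLaw (μ t)) ∧
      (∀ t, ¬ root t → ∀ h : (Fin n → Bool) → ℝ, H684.DepOn (S t : Set (Fin n)) h →
        H684.Ex (μ t) h = H684.Ex (μ (par t)) h) ∧
      (∀ t p q, Λ * H684.Ex (μ t) (H684.dif p q) ≤ dt t p q / 2) ∧
      (∀ (τ : ℕ → T) (N : ℕ), NPath par root τ N → 0 < N → ∀ z ∈ H (τ N), ∀ r : Fin n → ℝ,
        (∀ a ∈ S (τ 1), r a ≤ 0) →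
        (∀ i < N, ∀ z ∈ H (τ (i + 1)), z ∉ S (τ (i + 1)) → ∀ a ∈ S (τ (i + 1)),
          r z ≤ r a + D (τ (i + 1)) z a) →
        ∃ (c : ℝ) (Ω : Type) (_ : Fintype Ω) (w : Ω → ℝ) (X : ℕ → Ω → (Fin n → Bool)),
          NodeCoup μ S H τ N z c w X ∧ r z ≤ PathChain.C1 kk (κ * c0) * (Λ * c)) := by
  classical
  obtain ⟨G, hG0, hG⟩ := R.exists_bound
  set K : ℝ := G * (2 * M + 1) with hKdef
  have hM0 : (0 : ℝ) ≤ M := Nat.cast_nonneg M
  have hGK : G ≤ K := by
    rw [hKdef]
    nlinarith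
  have hK : 0 < K := lt_of_lt_of_le hG0 hGK
  have hgK : ∀ t o p, |R.g t o p| ≤ K := fun t o p => (hG t o p).trans hGK
  have hκ' : 0 < κ * c0 := mul_pos hκ hc0
  have hC1 : 0 < PathChain.C1 kk (κ * c0) := PathChain.C1_pos hkk hκ'
  refine ⟨fun t => H957.lawOf K (R.P t) (R.g t), 2 * K, by positivity, fun t =>
    H957.lawOf_isLaw hK (R.P_nonneg t) (R.P_sum t) (R.g t), ?_, ?_, ?_⟩
  · -- consistency
    intro t ht h hh
    rw [H957.Ex_lawOf, H957.Ex_lawOf]
    refine (H957.mu_step (Q := R.Q t) (R.Q_nonneg t) (R.Q_left t ht) (R.Q_right t ht)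
      (fun o' a ha => R.ce t ht a ha o') ?_ (fun o a _ => hgK _ _ _) hh).symm
    intro o' a ha b hb
    rcases le_total (R.g t o' a) (R.g t o' b) with h2 | h2
    · exact Or.inl fun o ho => (R.ord t ht o o' ho.ne' a ha b hb).mpr h2
    · exact Or.inr fun o ho => (R.ord t ht o o' ho.ne' b hb a ha).mpr h2
  · -- the upper bound
    intro t p p'
    have hEx : 2 * K * H684.Ex (H957.lawOf K (R.P t) (R.g t)) (H684.dif p p') =
        ∑ o, R.P t o * |R.g t o p - R.g t o p'| := by
      rw [H957.Ex_lawOf]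
      have h1 := H957.mu_ne (R.P t) (g := R.g t) (p := p) (q := p') (fun o => hgK t o p)
        (fun o => hgK t o p')
      have h2 : (H684.dif p p' : (Fin n → Bool) → ℝ) = fun X => if X p = X p' then 0 else 1 := rfl
      rw [h2, h1]
      field_simp
    rw [hEx]
    exact R.mean_abs hdt t p p'
  · -- the couplings
    intro τ N hp hN z hz r hr0 hr
    have hNM : N ≤ M := by
      have h1 : ∀ i ≤ N, i ≤ rk (τ i) := by
        intro i
        induction i with
        | zero => intro _; exact Nat.zero_le _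
        | succ i ih =>
          intro hi
          have h2 := ih (by omega)
          have h3 := hrk _ (hp.nroot i (by omega))
          rw [hp.par i (by omega)] at h3
          omega
      exact (h1 N le_rfl).trans (hM _)
    have hNM' : (N : ℝ) ≤ M := by exact_mod_cast hNM
    set Ch := chainOf (H := H) R hSH hSP hne hp with hCh
    have hB0 : Ch.B 0 = S (τ 1) := by
      show (if (0 : ℕ) = 0 then S (τ 1) else H (τ 0)) = S (τ 1)
      exact if_pos rfl
    have hBs : ∀ i, Ch.B (i + 1) = H (τ (i + 1)) := by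
      intro i
      show (if i + 1 = 0 then S (τ 1) else H (τ (i + 1))) = H (τ (i + 1))
      exact if_neg (Nat.succ_ne_zero i)
    have hzN : z ∈ Ch.B N := by
      obtain ⟨N', rfl⟩ : ∃ N', N = N' + 1 := ⟨N - 1, by omega⟩
      rw [hBs]
      exact hz
    obtain ⟨Om', hf, P', X, h1, h2, h3, h4⟩ := coupling_fresh Ch (G := G)
      (K := K) hK (fun i _ ω p _ => hG _ _ _) hG0.le (by rw [hKdef]; nlinarith) hkk hκ' hε
      (r := r) (d := fun i z a => D (τ i) z a)
      (fun i _ => hcard _)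
      (by
        intro v hv
        rw [hB0] at hv
        exact hr0 v hv)
      (by
        intro i hi z hz hzA a ha
        rw [hBs] at hz
        exact hr i hi z hz hzA a ha)
      (by
        intro i hi z hz hzA a ha
        rw [hBs] at hz
        exact hD0 _ z hz hzA a ha)
      (by
        intro i hi z hz hzA a ha
        rw [hBs] at hz
        have h5 := R.mean_abs hdt (τ (i + 1)) z a
        have h6 := hDd _ z hz hzA a ha
        show ∑ ω, R.P (τ (i + 1)) ω * |R.g (τ (i + 1)) ω z - R.g (τ (i + 1)) ω a| ≤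
          D (τ (i + 1)) z a
        linarith)
      (by
        intro i hi z hz hzA a ha
        rw [hBs] at hz
        have h5 := R.ac (τ (i + 1)) z a
        refine le_trans (sum_le_sum fun ω _ => ?_) h5
        show (if |R.g (τ (i + 1)) ω z - R.g (τ (i + 1)) ω a| < κ * c0 * D (τ (i + 1)) z a
          then R.P (τ (i + 1)) ω else 0) ≤ (if |R.g (τ (i + 1)) ω z - R.g (τ (i + 1)) ω a| <
          κ * Cc (τ (i + 1)) z a then R.P (τ (i + 1)) ω else 0)
        have h6 := mul_le_mul_of_nonneg_left (hDC _ (hp.nroot i hi) z hz hzA a ha) hκ.le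
        have h7 := R.P_nonneg (τ (i + 1)) ω
        split_ifs with c1 c2 c2
        · exact le_rfl
        · exact absurd (lt_of_lt_of_le c1 (by rw [mul_assoc]; exact h6)) c2
        · exact h7
        · exact le_rfl)
      (x := z) hzN
    refine ⟨r z / (2 * K * PathChain.C1 kk (κ * c0)), Om', hf, P', X, ⟨h1, ?_, ?_, ?_⟩, ?_⟩
    · intro i hi1 hi h hh
      rw [H957.Ex_lawOf]
      refine h2 i hi h fun X X' hX => hh X X' fun v hv => hX v ?_
      obtain ⟨i', rfl⟩ : ∃ i', i = i' + 1 := ⟨i - 1, by omega⟩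
      rw [hBs]
      exact mem_coe.mp hv
    · intro i _ hi ω hω v hv
      exact h3 i hi ω hω v hv
    · intro f hf01 hfd
      have h5 := h4 fun Y => decide (f Y = 1)
      refine h5.trans (le_of_eq (sum_congr rfl fun ω _ => ?_))
      by_cases hω : P' ω = 0
      · rw [hω, zero_mul, zero_mul]
      congr 1
      have h6 : f (X 1 ω) = f (X 0 ω) := hfd _ _ fun v hv => (h3 0 hN ω hω v (mem_coe.mp hv)).symm
      rw [h6]
      rcases hf01 (X 0 ω) with h7 | h7 <;> rw [h7] <;> cases X N ω z <;> simp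
    · have h5 : PathChain.C1 kk (κ * c0) * (2 * K * (r z / (2 * K *
          PathChain.C1 kk (κ * c0)))) = r z := by
        field_simp
      rw [h5]

end

end Vale.Agent.P235.K5.H332
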