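import Vale.Agent.P235.K5.H332.NLoc
import Vale.Agent.P235.K5.H669.Tree
import Vale.Agent.P235.K5.Glue

set_option linter.all false

/-!
# P235, 3-sums, row [N-OUT]: from the process to the output of Theorem N in torso letters
-/

namespace Vale.Agent.P235.K5.H332

open Finset Vale.Agent.P235 Vale.Agent.P235.H926 Vale.Agent.P235.K5.H439 Vale.Agent.P235.K5.H838

section

variable {n T k : ℕ} {Z : Tor n T k} {d : Fin n → Fin n → ℝ}

theorem pm_of_sep (h : Z.Sep d) : PM d := ⟨h.self, h.symm, h.tri⟩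

theorem up_lt_of_ne {t : Fin T} (h : ¬ Z.up t = t) : Z.up t < t := lt_of_le_of_ne (Z.up_le t) h

theorem below_self {v : Fin n} {t : Fin T} (h : Z.tor v = t) : Z.Below t v := by
  subst h
  exact H684.Elim.Desc.refl _ _

theorem below_up {v : Fin n} {t : Fin T} (h : Z.Below t v) : Z.Below (Z.up t) v :=
  H684.Elim.Desc.trans ⟨1, rfl⟩ h

theorem le_of_below {v : Fin n} {t : Fin T} (h : Z.Below t v) : t ≤ Z.tor v :=
  H684.Elim.Desc.le h

/-- the vertices of the torsos below `t` -/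
def WW (Z : Tor n T k) (t : Fin T) : Set (Fin n) := {v | Z.Below t v} ∪ (Z.S t : Set (Fin n))

theorem H_sub_W {t : Fin T} {v : Fin n} (h : v ∈ Z.H t) : v ∈ WW Z t := by
  unfold Tor.H at h
  rw [mem_union, mem_filter] at h
  rcases h with h | h
  · exact Or.inr (mem_coe.2 h)
  · exact Or.inl (below_self h.2)

theorem S_sub_H (t : Fin T) : Z.S t ⊆ Z.H t := subset_union_left

theorem S_sub_up {t : Fin T} : Z.S t ⊆ Z.H (Z.up t) := by
  intro a ha
  unfold Tor.H
  rw [mem_union, mem_filter]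
  rcases Z.sub t a ha with h | h
  · exact Or.inl h
  · exact Or.inr ⟨mem_univ _, h⟩

/-- the nodes of helper669 of a tree of torsos -/
def nodes (h : Z.Sep d) : H669.Nodes (Fin T) (Fin n) d where
  par := Z.up
  root := fun t => Z.up t = t
  rk := fun t => t.val
  rk_par := fun t ht => Fin.lt_def.1 (up_lt_of_ne ht)
  S := Z.S
  W := WW Z
  S_ne := fun t ht => by
    obtain ⟨v, hv⟩ := Z.surj t
    obtain ⟨w, hw⟩ := Z.surj (Z.up t)
    have h1 : ¬ Z.Below t w := by
      intro h2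
      have h3 := le_of_below h2
      rw [hw] at h3
      exact absurd (up_lt_of_ne ht) (not_lt.2 h3)
    obtain ⟨a, ha, -⟩ := h.sep t v w (below_self hv) h1
    exact ⟨a, ha⟩
  S_sub := fun t => Set.subset_union_right
  W_par := fun t ht => by
    intro v hv
    rcases hv with hv | hv
    · exact Or.inl (below_up hv)
    · exact H_sub_W (S_sub_up (mem_coe.1 hv))
  sep := fun t ht v hv s hs => by
    rcases hv with hv | hv
    · have h1 : ¬ Z.Below t s := by
        intro h2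
        have h3 := le_of_below h2
        have h4 := Z.low _ s hs
        exact absurd (lt_trans h4 (up_lt_of_ne ht)) (not_lt.2 h3)
      exact h.sep t v s hv h1
    · exact ⟨v, mem_coe.1 hv, by rw [h.self, zero_add]⟩

theorem anc_path (h : Z.Sep d) {s : ℕ → Fin T} {N : ℕ} (hp : H684.Path Z.tree s N) :
    ∀ i < N, H669.Nodes.Anc (nodes h) (s 1) (s (i + 1)) := by
  intro i
  induction i with
  | zero => intro _; exact H669.Nodes.Anc.refl
  | succ i ih =>
    intro hi
    have h1 : Z.up (s (i + 1 + 1)) = s (i + 1) := hp.par (i + 1) hi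
    refine H669.Nodes.Anc.step (t := s (i + 1 + 1)) ?_ ?_
    · intro h2
      have h3 : Z.up (s (i + 1 + 1)) = s (i + 1 + 1) := h2
      exact hp.ne (i + 1) hi (h1.symm.trans h3)
    · show H669.Nodes.Anc (nodes h) (s 1) (Z.up (s (i + 1 + 1)))
      rw [h1]
      exact ih (by omega)

/-- **[N-OUT]** -/
theorem nout (h : Z.Sep d) {M0 : ℝ} (hM0 : ∀ p q, d p q ≤ M0)
    {Cc : Fin T → Fin n → Fin n → ℝ} {κ ε : ℝ}
    (R : BProc (Fin T) (Fin n) ((nodes h).dt M0) Z.up (fun t => Z.up t = t) Z.S Cc κ ε)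
    (hκ : 0 < κ) {kk : ℕ} (hkk : 0 < kk) (hk : k ≤ kk)
    (hε : kk * ε ≤ PathChain.thSeq kk (kk - 1) / 4) {c0 : ℝ} (hc0 : 0 < c0)
    (hC : ∀ t, ∀ z ∈ Z.H t, ∀ a ∈ Z.S t, c0 * (nodes h).X t a z ≤ Cc t z a) :
    Z.NLaw d (PathChain.C1 kk (κ * c0)) := by
  have hd := pm_of_sep h
  rcases isEmpty_or_nonempty (Fin n) with hn | ⟨⟨v0⟩⟩
  · -- no vertices: no torsos
    have hT : ∀ t : Fin T, False := fun t => by
      obtain ⟨v, -⟩ := Z.surj t
      exact hn.false v
    exact ⟨fun t => (hT t).elim, 1, one_pos, fun t => (hT t).elim, fun t => (hT t).elim,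
      fun t => (hT t).elim, fun s => (hT (s 0)).elim⟩
  have hM : 0 ≤ M0 := (hd.nonneg v0 v0).trans (hM0 _ _)
  obtain ⟨μ, Λ, hΛ, hlaw, hcons, hup, hfar⟩ := nloc (H := Z.H) R hκ
    (fun t p q => H669.Nodes.dt_nonneg hM t p q) (fun t => t.val) T
    (fun t ht => Fin.lt_def.1 (up_lt_of_ne ht)) (fun t => t.isLt.le)
    S_sub_H (fun t _ => S_sub_up) (fun t ht => (nodes h).S_ne t ht) hkk
    (fun t => (Z.card t).trans hk) hε hc0 (fun t z a => (nodes h).X t a z)
    (fun t z _ _ a ha => H669.Nodes.X_nonneg hd t ha z)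
    (fun t z hz _ a ha => by
      have h1 : (nodes h).dt M0 t z a = (nodes h).EE t z a :=
        H669.Nodes.dt_of_mem (H_sub_W hz) (Or.inr (mem_coe.2 ha))
      have h2 : (nodes h).EE t z a ≤ (nodes h).X t a z := H669.Nodes.EE_le_X hd t ha
      have h3 : 0 ≤ (nodes h).X t a z := H669.Nodes.X_nonneg hd t ha z
      rw [h1]
      linarith)
    (fun t _ z hz _ a ha => hC t z hz a ha)
  refine ⟨μ, Λ, hΛ, hlaw, hcons, ?_, ?_⟩
  · intro t p hp p' hp'
    have h1 := hup t p p'
    have h2 : (nodes h).dt M0 t p p' ≤ d p p' :=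
      H669.Nodes.dt_le hd (H_sub_W hp) (H_sub_W hp')
    have h3 := hd.nonneg p p'
    linarith
  · intro s N hp z hz r hr hrd
    have hN := hp.pos
    have hnr : ∀ i < N, ¬ Z.up (s (i + 1)) = s (i + 1) := by
      intro i hi h2
      exact hp.ne i hi ((hp.par i hi).symm.trans h2)
    have hzH : z ∈ Z.H (s N) := by
      unfold Tor.H
      rw [mem_union, mem_filter]
      exact Or.inr ⟨mem_univ _, hz⟩
    have hne1 : (Z.S (s 1)).Nonempty := (nodes h).S_ne (s 1) (hnr 0 hN)
    obtain ⟨c, Ω, hf, w, X, hco, hle⟩ := hfar s N ⟨fun i hi => hp.par i hi, hnr⟩ hN z hzH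
      ((nodes h).F (s 1))
      (fun a ha => le_of_eq (H669.Nodes.F_mem (D := nodes h) hd ha))
      (fun i hi z hz _ a ha => H669.Nodes.F_le (D := nodes h) hd hne1 (anc_path h hp i hi)
        (H_sub_W hz) ha)
    refine ⟨c, Ω, hf, w, X, ⟨hco.nonneg, hco.bag, hco.agree, hco.far⟩, ?_⟩
    refine le_trans ?_ hle
    obtain ⟨a, ha, h5⟩ := exists_dS (d := d) hne1 z
    have h6 : (nodes h).F (s 1) z = d z a := h5
    rw [h6]
    exact hrd a ha

end

end Vale.Agent.P235.K5.H332
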